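import Mathlib

open MeasureTheory Real
open scoped ENNReal

namespace Vale.Agent.P245

/-- standard Gaussian density on `Fin n → ℝ` -/
noncomputable def gd {n : ℕ} (z : Fin n → ℝ) : ℝ := ∏ i, ((√(2 * π))⁻¹ * exp (-(z i) ^ 2 / 2))

/-- standard Gaussian measure -/
noncomputable def gsn (n : ℕ) : Measure (Fin n → ℝ) :=
  volume.withDensity fun z => ENNReal.ofReal (gd z)

theorem gd_pos {n : ℕ} (z : Fin n → ℝ) : 0 < gd z :=
  Finset.prod_pos fun i _ => by positivity

theorem continuous_gd {n : ℕ} : Continuous (gd : (Fin n → ℝ) → ℝ) := by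
  unfold gd; fun_prop

theorem measurable_gd {n : ℕ} : Measurable (gd : (Fin n → ℝ) → ℝ) := continuous_gd.measurable

theorem gd_eq {n : ℕ} (z : Fin n → ℝ) :
    gd z = (√(2 * π))⁻¹ ^ n * exp (-(∑ i, z i ^ 2) / 2) := by
  unfold gd
  rw [Finset.prod_mul_distrib, ← exp_sum]
  simp only [Finset.prod_const, Finset.card_univ, Fintype.card_fin]
  congr 2
  rw [neg_div, Finset.sum_div, ← Finset.sum_neg_distrib]
  apply Finset.sum_congr rfl
  intro i _
  ring

theorem integral_gam {n : ℕ} (F : (Fin n → ℝ) → ℝ) :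
    ∫ z, F z ∂(gsn n) = ∫ z, gd z * F z := by
  unfold gsn
  rw [integral_withDensity_eq_integral_toReal_smul (by exact measurable_gd.ennreal_ofReal)
    (Filter.Eventually.of_forall fun z => ENNReal.ofReal_lt_top)]
  apply integral_congr_ae
  filter_upwards with z
  rw [ENNReal.toReal_ofReal (gd_pos z).le, smul_eq_mul]

theorem integrable_gam_iff {n : ℕ} {F : (Fin n → ℝ) → ℝ} :
    Integrable F (gsn n) ↔ Integrable (fun z => gd z * F z) := by
  unfold gsn
  rw [integrable_withDensity_iff_integrable_smul' (by exact measurable_gd.ennreal_ofReal)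
    (Filter.Eventually.of_forall fun z => ENNReal.ofReal_lt_top)]
  apply integrable_congr
  filter_upwards with z
  rw [ENNReal.toReal_ofReal (gd_pos z).le, smul_eq_mul]

/-- one dimensional integrability -/
theorem integrable_exp_abs_gauss (c : ℝ) :
    Integrable (fun x : ℝ => (√(2 * π))⁻¹ * exp (-x ^ 2 / 2) * exp (c * |x|)) := by
  have h : Integrable (fun x : ℝ => (√(2 * π))⁻¹ * exp (c ^ 2) * exp (-(1 / 4) * x ^ 2)) :=
    (integrable_exp_neg_mul_sq (by norm_num)).const_mul _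
  refine h.mono' (by fun_prop) (Filter.Eventually.of_forall fun x => ?_)
  rw [Real.norm_of_nonneg (by positivity), mul_assoc, mul_assoc, ← exp_add, ← exp_add]
  apply mul_le_mul_of_nonneg_left _ (by positivity)
  apply exp_le_exp.2
  have : |x| ^ 2 = x ^ 2 := sq_abs x
  nlinarith [sq_nonneg (|x| / 2 - c)]

theorem integrable_exp_abs {n : ℕ} (c : ℝ) :
    Integrable (fun z : Fin n → ℝ => exp (c * ∑ i, |z i|)) (gsn n) := by
  rw [integrable_gam_iff]
  have : (fun z : Fin n → ℝ => gd z * exp (c * ∑ i, |z i|))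
      = fun z : Fin n → ℝ => ∏ i, ((√(2 * π))⁻¹ * exp (-(z i) ^ 2 / 2) * exp (c * |z i|)) := by
    funext z
    rw [Finset.prod_mul_distrib, ← exp_sum, gd, Finset.mul_sum]
  rw [this]
  exact Integrable.fintype_prod (f := fun _ x => (√(2 * π))⁻¹ * exp (-x ^ 2 / 2) * exp (c * |x|))
    (fun _ => integrable_exp_abs_gauss c)

theorem integral_gd_one {n : ℕ} : ∫ z : Fin n → ℝ, gd z = 1 := by
  unfold gd
  rw [integral_fintype_prod_volume_eq_prod (fun _ x => (√(2 * π))⁻¹ * exp (-x ^ 2 / 2))]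
  apply Finset.prod_eq_one
  intro i _
  have e : (fun x : ℝ => (√(2 * π))⁻¹ * exp (-x ^ 2 / 2))
      = fun x => (√(2 * π))⁻¹ * exp (-(1 / 2) * x ^ 2) := by
    funext x; congr 2; ring
  rw [e, integral_const_mul, integral_gaussian]
  have : π / (1 / 2) = 2 * π := by ring
  rw [this, inv_mul_cancel₀ (by positivity)]

theorem integrable_gd {n : ℕ} : Integrable (gd : (Fin n → ℝ) → ℝ) := by
  by_contra h
  have := integral_undef h
  rw [integral_gd_one] at this
  exact one_ne_zero this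

instance isProb_gam {n : ℕ} : IsProbabilityMeasure (gsn n) := by
  constructor
  unfold gsn
  rw [withDensity_apply _ MeasurableSet.univ, Measure.restrict_univ,
    ← ofReal_integral_eq_lintegral_ofReal integrable_gd
      (Filter.Eventually.of_forall fun z => (gd_pos z).le), integral_gd_one, ENNReal.ofReal_one]

/-- Cameron–Martin shift -/
theorem integral_gam_shift {n : ℕ} (a : Fin n → ℝ) (F : (Fin n → ℝ) → ℝ) :
    ∫ z, F (z + a) ∂(gsn n)
      = ∫ z, F z * exp (∑ i, a i * z i - (∑ i, a i ^ 2) / 2) ∂(gsn n) := by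
  rw [integral_gam, integral_gam]
  have h := integral_add_right_eq_self (μ := (volume : Measure (Fin n → ℝ)))
    (fun z => gd (z - a) * F z) a
  simp only [add_sub_cancel_right] at h
  rw [h]
  apply integral_congr_ae
  filter_upwards with z
  have : gd (z - a) = gd z * exp (∑ i, a i * z i - (∑ i, a i ^ 2) / 2) := by
    rw [gd_eq, gd_eq, mul_assoc, ← exp_add]
    congr 2
    simp only [Pi.sub_apply]
    rw [← sub_eq_zero]
    have e : ∑ i, (z i - a i) ^ 2 = ∑ i, z i ^ 2 - 2 * ∑ i, a i * z i + ∑ i, a i ^ 2 := by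
      rw [Finset.mul_sum, ← Finset.sum_sub_distrib, ← Finset.sum_add_distrib]
      apply Finset.sum_congr rfl
      intro i _; ring
    rw [e]; ring
  rw [this]; ring

theorem lintegral_gam_shift {n : ℕ} (a : Fin n → ℝ) (F : (Fin n → ℝ) → ℝ≥0∞)
    (hF : Measurable F) :
    ∫⁻ z, F (z + a) ∂(gsn n)
      = ∫⁻ z, F z * ENNReal.ofReal (exp (∑ i, a i * z i - (∑ i, a i ^ 2) / 2)) ∂(gsn n) := by
  unfold gsn
  rw [lintegral_withDensity_eq_lintegral_mul _ (measurable_gd.ennreal_ofReal)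
    (show Measurable fun z => F (z + a) from hF.comp (measurable_id.add_const a)),
    lintegral_withDensity_eq_lintegral_mul _ (measurable_gd.ennreal_ofReal)
    (show Measurable fun z => F z *
      ENNReal.ofReal (exp (∑ i, a i * z i - (∑ i, a i ^ 2) / 2)) from hF.mul (by fun_prop))]
  have h := lintegral_add_right_eq_self (μ := (volume : Measure (Fin n → ℝ)))
    (fun z => ENNReal.ofReal (gd (z - a)) * F z) a
  simp only [add_sub_cancel_right] at h
  simp only [Pi.mul_apply]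
  rw [h]
  apply lintegral_congr
  intro z
  have : gd (z - a) = gd z * exp (∑ i, a i * z i - (∑ i, a i ^ 2) / 2) := by
    rw [gd_eq, gd_eq, mul_assoc, ← exp_add]
    congr 2
    simp only [Pi.sub_apply]
    rw [← sub_eq_zero]
    have e : ∑ i, (z i - a i) ^ 2 = ∑ i, z i ^ 2 - 2 * ∑ i, a i * z i + ∑ i, a i ^ 2 := by
      rw [Finset.mul_sum, ← Finset.sum_sub_distrib, ← Finset.sum_add_distrib]
      apply Finset.sum_congr rfl
      intro i _; ring
    rw [e]; ring
  rw [this, ENNReal.ofReal_mul (gd_pos z).le]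
  ring

/-- exponential moments -/
theorem integral_gam_exp {n : ℕ} (a : Fin n → ℝ) :
    ∫ z, exp (∑ i, a i * z i) ∂(gsn n) = exp ((∑ i, a i ^ 2) / 2) := by
  have h := integral_gam_shift a (fun _ => (1 : ℝ))
  simp only [integral_const, probReal_univ, smul_eq_mul, mul_one, one_mul] at h
  have e : ∀ z : Fin n → ℝ, exp (∑ i, a i * z i - (∑ i, a i ^ 2) / 2)
      = exp (-((∑ i, a i ^ 2) / 2)) * exp (∑ i, a i * z i) := by
    intro z; rw [← exp_add]; congr 1; ring
  simp_rw [e] at h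
  rw [integral_const_mul] at h
  have h2 : exp ((∑ i, a i ^ 2) / 2) * 1
      = exp ((∑ i, a i ^ 2) / 2) * (exp (-((∑ i, a i ^ 2) / 2)) * ∫ z, exp (∑ i, a i * z i) ∂(gsn n)) := by
    rw [← h]
  rw [mul_one, ← mul_assoc, ← exp_add, add_neg_cancel, exp_zero, one_mul] at h2
  exact h2.symm

theorem hasDerivAt_gd_line {n : ℕ} (z : Fin n → ℝ) (i : Fin n) :
    fderiv ℝ gd z (Pi.single i 1) = -(z i) * gd z := by
  have hfun : (gd : (Fin n → ℝ) → ℝ)
      = fun z => (√(2 * π))⁻¹ ^ n * exp (-(∑ i, z i ^ 2) / 2) := by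
    funext z; exact gd_eq z
  have h1 : HasFDerivAt (fun z : Fin n → ℝ => ∑ i, z i ^ 2)
      (∑ i, (2 * z i) • (ContinuousLinearMap.proj (R := ℝ) i : (Fin n → ℝ) →L[ℝ] ℝ)) z := by
    apply HasFDerivAt.fun_sum
    intro j _
    have := (ContinuousLinearMap.proj (R := ℝ) (φ := fun _ : Fin n => ℝ) j).hasFDerivAt (x := z)
    simpa using this.pow 2
  have h2 : HasFDerivAt (gd : (Fin n → ℝ) → ℝ)
      ((√(2 * π))⁻¹ ^ n • (exp (-(1 / 2) * (∑ i, z i ^ 2)) • ((-(1 / 2) : ℝ) •
        (∑ i, (2 * z i) • (ContinuousLinearMap.proj (R := ℝ) i : (Fin n → ℝ) →L[ℝ] ℝ))))) z := by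
    rw [hfun]
    have h3 := ((h1.const_mul (-(1 / 2) : ℝ)).exp.const_mul ((√(2 * π))⁻¹ ^ n))
    have e : ∀ y : Fin n → ℝ, (√(2 * π))⁻¹ ^ n * exp (-(∑ i, y i ^ 2) / 2)
        = (√(2 * π))⁻¹ ^ n * exp (-(1 / 2) * (∑ i, y i ^ 2)) := by
      intro y; congr 2; ring
    simp_rw [e]
    exact h3
  have hs : (∑ j, (2 * z j) • (ContinuousLinearMap.proj (R := ℝ) j : (Fin n → ℝ) →L[ℝ] ℝ))
      (Pi.single i 1) = 2 * z i := by
    rw [_root_.sum_apply]
    rw [Finset.sum_eq_single i]
    · simp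
    · intro j _ hj
      simp [hj]
    · simp
  rw [h2.fderiv, gd_eq z]
  simp only [_root_.smul_apply, smul_eq_mul, hs]
  have e : -(∑ i, z i ^ 2) / 2 = -(1 / 2) * (∑ i, z i ^ 2) := by ring
  rw [e]; ring

theorem differentiable_gd {n : ℕ} : Differentiable ℝ (gd : (Fin n → ℝ) → ℝ) := by
  have hfun : (gd : (Fin n → ℝ) → ℝ)
      = fun z => (√(2 * π))⁻¹ ^ n * exp (-(∑ i, z i ^ 2) / 2) := by
    funext z; exact gd_eq z
  rw [hfun]
  fun_prop

/-- growth control by exponentials of the `ℓ¹` norm -/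
def EG1 {n : ℕ} (φ : (Fin n → ℝ) → ℝ) : Prop :=
  ∃ C : ℝ, 0 ≤ C ∧ ∀ z, |φ z| ≤ C * exp (C * ∑ i, |z i|)

theorem EG1.integrable {n : ℕ} {φ : (Fin n → ℝ) → ℝ} (h : EG1 φ)
    (hm : AEStronglyMeasurable φ (gsn n)) : Integrable φ (gsn n) := by
  obtain ⟨C, hC0, hC⟩ := h
  exact ((integrable_exp_abs C).const_mul C).mono' hm
    (Filter.Eventually.of_forall fun z => by rw [Real.norm_eq_abs]; exact hC z)

theorem EG1.mul_coord {n : ℕ} {φ : (Fin n → ℝ) → ℝ} (h : EG1 φ) (i : Fin n) :
    EG1 fun z => z i * φ z := by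
  obtain ⟨C, hC0, hC⟩ := h
  refine ⟨C + 1, by linarith, fun z => ?_⟩
  have hS : |z i| ≤ ∑ i, |z i| := Finset.single_le_sum (f := fun i => |z i|)
    (fun j _ => abs_nonneg _) (Finset.mem_univ i)
  have hS0 : 0 ≤ ∑ i, |z i| := Finset.sum_nonneg fun j _ => abs_nonneg _
  rw [abs_mul]
  calc |z i| * |φ z| ≤ exp (∑ i, |z i|) * (C * exp (C * ∑ i, |z i|)) := by
        apply mul_le_mul _ (hC z) (abs_nonneg _) (exp_pos _).le
        exact hS.trans ((by linarith [add_one_le_exp (∑ i, |z i|)]))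
    _ = C * exp ((C + 1) * ∑ i, |z i|) := by
        rw [mul_left_comm, ← exp_add]; ring_nf
    _ ≤ (C + 1) * exp ((C + 1) * ∑ i, |z i|) := by
        apply mul_le_mul_of_nonneg_right (by linarith) (exp_pos _).le

/-- Gaussian integration by parts -/
theorem gauss_ibp {n : ℕ} {φ : (Fin n → ℝ) → ℝ} (hφ : Differentiable ℝ φ) (h0 : EG1 φ)
    (i : Fin n) (h1 : EG1 fun z => fderiv ℝ φ z (Pi.single i 1))
    (hm : AEStronglyMeasurable (fun z => fderiv ℝ φ z (Pi.single i 1)) (gsn n)) :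
    ∫ z, z i * φ z ∂(gsn n) = ∫ z, fderiv ℝ φ z (Pi.single i 1) ∂(gsn n) := by
  have hφm : AEStronglyMeasurable φ (gsn n) := hφ.continuous.aestronglyMeasurable
  have i0 : Integrable (fun z => φ z * gd z) := by
    have := integrable_gam_iff.1 (h0.integrable hφm)
    simpa [mul_comm] using this
  have i1 : Integrable (fun z => fderiv ℝ φ z (Pi.single i 1) * gd z) := by
    have := integrable_gam_iff.1 (h1.integrable hm)
    simpa [mul_comm] using this
  have i2 : Integrable (fun z => φ z * fderiv ℝ gd z (Pi.single i 1)) := by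
    have := integrable_gam_iff.1 ((h0.mul_coord i).integrable
      ((continuous_apply i).aestronglyMeasurable.mul hφm))
    refine (this.neg).congr (Filter.Eventually.of_forall fun z => ?_)
    simp only [Pi.neg_apply]
    rw [hasDerivAt_gd_line]; ring
  have key := integral_mul_fderiv_eq_neg_fderiv_mul_of_integrable (μ := volume)
    (f := φ) (g := gd) (v := Pi.single i 1) i1 i2 i0 (fun x _ => hφ x)
    (fun x _ => differentiable_gd x)
  rw [integral_gam, integral_gam]
  have e1 : ∀ z : Fin n → ℝ, gd z * (z i * φ z) = -(φ z * fderiv ℝ gd z (Pi.single i 1)) := by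
    intro z; rw [hasDerivAt_gd_line]; ring
  simp_rw [e1]
  rw [integral_neg, key, neg_neg]
  apply integral_congr_ae
  filter_upwards with z
  ring

end Vale.Agent.P245
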