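import Mathlib

open MeasureTheory
open scoped ContDiff

namespace Vale.Agent.P245

/-- The entropy functional `Ent_μ(g) = ∫ g log g dμ - (∫ g dμ) log (∫ g dμ)`. -/
noncomputable def Entropy {n : ℕ} (μ : Measure (EuclideanSpace ℝ (Fin n)))
    (g : EuclideanSpace ℝ (Fin n) → ℝ) : ℝ :=
  ∫ x, g x * Real.log (g x) ∂μ - (∫ x, g x ∂μ) * Real.log (∫ x, g x ∂μ)

/-- `μ` has a log-concave density `ρ` with respect to Lebesgue measure: the set where `ρ` is
positive is convex and `log ρ` is concave on it. -/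
def HasLogConcaveDensity {n : ℕ} (μ : Measure (EuclideanSpace ℝ (Fin n))) : Prop :=
  ∃ ρ : EuclideanSpace ℝ (Fin n) → ℝ, Measurable ρ ∧ (∀ x, 0 ≤ ρ x) ∧
    ConcaveOn ℝ {x | 0 < ρ x} (fun x => Real.log (ρ x)) ∧
    μ = (volume : Measure (EuclideanSpace ℝ (Fin n))).withDensity
      (fun x => ENNReal.ofReal (ρ x))

/-- The reflection `(x_1, ..., x_n) ↦ (x_1, ..., -x_i, ..., x_n)`. -/
noncomputable def coordReflection {n : ℕ} (i : Fin n) (x : EuclideanSpace ℝ (Fin n)) :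
    EuclideanSpace ℝ (Fin n) :=
  x - (2 * x i) • EuclideanSpace.single i (1 : ℝ)

/-- `μ` is unconditional: it is invariant under all coordinate reflections. -/
def IsUnconditional {n : ℕ} (μ : Measure (EuclideanSpace ℝ (Fin n))) : Prop :=
  ∀ i : Fin n, μ.map (coordReflection i) = μ

/-- `μ` is linearly `a`-subgaussian: `E exp(⟨X,θ⟩^2/a^2) ≤ 2` for every unit vector `θ`. -/
def LinearlySubgaussian {n : ℕ} (μ : Measure (EuclideanSpace ℝ (Fin n))) (a : ℝ) : Prop :=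
  ∀ θ : EuclideanSpace ℝ (Fin n), ‖θ‖ = 1 →
    ∫⁻ x, ENNReal.ofReal (Real.exp (inner ℝ x θ ^ 2 / a ^ 2)) ∂μ ≤ 2

end Vale.Agent.P245
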